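import Vale.Agent.P011.D4X.H659.Hh

/-!
Block D4X (helper659): the subgroup generated by the elements of the centralisers whose multiplier
lies in a given subgroup, and the planes of neighbours.
-/

open NumberField Topology

set_option linter.unusedSectionVars false

namespace Vale.Agent.P011.D4X

open Vale.Agent.P011.MPQ Vale.Agent.P011.D4 Vale.Agent.P011.D4.Oct Vale.Agent.P011.E6
open Vale.Agent.P011.D4X.H691 Vale.Agent.P011.D4.H24

/-- The subgroup generated by the elements with multiplier in `P` of the centralisers of the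
involutions of the standard plane. -/
def stabsP {k L E : Type} [Field k] [Field L] [Field E] [Algebra k L] [Algebra k E] [Algebra L E]
    [IsScalarTower k L E] [NeZero (2 : E)] (P : Subgroup Lˣ) (ρ σ : E ≃ₐ[k] E) (α : E)
    (a b c : kˣ) (q : Lˣ) : Subgroup (AT ρ σ α a b c q) :=
  Subgroup.closure {z | kap z ∈ P ∧ ∃ (b' c' : kˣ) (j l : Oct a b c) (h : Trip a b' c' gi j l),
    z ∈ stab ρ σ α q h}

section alg

variable {k L E : Type} [Field k] [Field L] [Field E] [Algebra k L] [Algebra k E] [Algebra L E]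
  [IsScalarTower k L E] [NeZero (2 : k)] [NeZero (2 : E)] {ρ σ : E ≃ₐ[k] E} {ρL : L ≃ₐ[k] L}
  {α : E} {a b c : kˣ} {q : Lˣ} {P : Subgroup Lˣ}

theorem stabsP_le : stabsP P ρ σ α a b c q ≤ stabs ρ σ α a b c q := by
  rw [stabsP, Subgroup.closure_le]
  rintro z ⟨-, b', c', j, l, h, hz⟩
  exact stab_le_stabs h hz

theorem mem_stabsP {z : AT ρ σ α a b c q} (hκ : kap z ∈ P) {b' c' : kˣ} {j l : Oct a b c}
    (h : Trip a b' c' gi j l) (hz : z ∈ stab ρ σ α q h) : z ∈ stabsP P ρ σ α a b c q :=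
  Subgroup.subset_closure ⟨hκ, b', c', j, l, h, hz⟩

theorem mem_stabsP0 {z : AT ρ σ α a b c q} (hκ : kap z ∈ P) (hz : z ∈ stab0 ρ σ α a b c q) :
    z ∈ stabsP P ρ σ α a b c q := by
  rw [← stab_std (trip_std : Trip a b c (gi : Oct a b c) gj gl)] at hz
  exact mem_stabsP hκ _ hz

theorem kap_mem {z : AT ρ σ α a b c q} (hz : z ∈ stabsP P ρ σ α a b c q) : kap z ∈ P := by
  have h : stabsP P ρ σ α a b c q ≤ P.comap (kapHom ρ σ α a b c q) := by
    rw [stabsP, Subgroup.closure_le]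
    rintro z ⟨h1, -⟩
    exact h1
  exact h hz

theorem cjA_mem_stabsP {b1 c1 : kˣ} {j1 l1 : Oct a b c} (h1 : Trip a b1 c1 gi j1 l1)
    {z : AT ρ σ α a b1 c1 q} (hz : z ∈ stabsP P ρ σ α a b1 c1 q) :
    cjA ρ σ α q h1 z ∈ stabsP P ρ σ α a b c q := by
  have key : stabsP P ρ σ α a b1 c1 q ≤
      (stabsP P ρ σ α a b c q).comap
        (cjA ρ σ α q h1 : AT ρ σ α a b1 c1 q →* AT ρ σ α a b c q) := by
    rw [stabsP, Subgroup.closure_le]
    rintro z ⟨hκ, b2, c2, j2, l2, h2, hz⟩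
    obtain ⟨z0, hz0, rfl⟩ := exists_of_mem_stab h2 hz
    obtain ⟨j, l, h, hh⟩ := exists_comp (E := E) h1 h2
    change cjA ρ σ α q h1 (cjA ρ σ α q h2 z0) ∈ stabsP P ρ σ α a b c q
    rw [← cjA_comp h1 h2 h hh]
    refine mem_stabsP ?_ h ((cjA_mem_stab h).2 hz0)
    rw [kap_cjA] at hκ ⊢
    exact hκ
  exact key hz

theorem tri_AT {z : OctL E a b c ≃ₗ[E] OctL E a b c} {κ : Lˣ} (h : IsKap ρ z κ)
    (x y : OctL E a b c) : tri ρ (z x) (z y) = (algebraMap L E (κ : L))⁻¹ • z (tri ρ x y) := by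
  have h0 : algebraMap L E (κ : L) ≠ 0 :=
    (map_ne_zero_iff _ (algebraMap L E).injective).2 κ.ne_zero
  rw [h, smul_smul, inv_mul_cancel₀ h0, one_smul]

theorem pt_AT (z : AT ρ σ α a b c q) {v : OctL E a b c} (hv : Pt ρ v) : Pt ρ (z.1 v) := by
  refine ⟨fun h => hv.1 (z.1.injective (h.trans (map_zero z.1).symm)), ?_⟩
  rw [tri_AT (isKap_kap z), hv.2, map_zero, smul_zero]

theorem nb_AT (z : AT ρ σ α a b c q) {v w : OctL E a b c} (h : Nb ρ v w) :
    Nb ρ (z.1 v) (z.1 w) := by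
  constructor
  · rw [tri_AT (isKap_kap z), h.1, map_zero, smul_zero]
  · rw [tri_AT (isKap_kap z), h.2, map_zero, smul_zero]

theorem pt_trip {b' c' : kˣ} {j l : Oct a b c} (h : Trip a b' c' gi j l) {v : OctL E a b' c'}
    (hv : Pt ρ (tripO E h v)) : Pt ρ v := by
  refine ⟨fun h0 => hv.1 (by rw [h0, map_zero]), ?_⟩
  apply (tripO E h).injective
  rw [tripO_tri, hv.2, map_zero]

theorem nb_trip {b' c' : kˣ} {j l : Oct a b c} (h : Trip a b' c' gi j l) {v w : OctL E a b' c'}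
    (hv : Nb ρ (tripO E h v) (tripO E h w)) : Nb ρ v w := by
  constructor
  · apply (tripO E h).injective
    rw [tripO_tri, hv.1, map_zero]
  · apply (tripO E h).injective
    rw [tripO_tri, hv.2, map_zero]

theorem tripO_ep' {b' c' : kˣ} {j l : Oct a b c} (h : Trip a b' c' gi j l) :
    tripO E h (ep α) = ep α := by
  rw [tripO_apply]
  simp only [emb, qemb, ep, oup_gi, QuaternionAlgebra.re_zero, QuaternionAlgebra.imI_zero,
    QuaternionAlgebra.imJ_zero, QuaternionAlgebra.imK_zero, zero_smul, add_zero, zero_mul]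
  apply ext8 <;> simp [gi] <;> first | exact mul_zero _ | exact mul_one _

/-- The plane of `v` is a translate of the standard plane. -/
def PPP (P : Subgroup Lˣ) (ρ σ : E ≃ₐ[k] E) (α : E) (q : Lˣ) {a b c : kˣ}
    (v : OctL E a b c) : Prop :=
  ∃ y ∈ stabsP P ρ σ α a b c q, ∃ t : E, t ≠ 0 ∧ y.1 (tri ρ v (Jm ρ σ α q v)) = t • ep α

theorem PPP_trip {b' c' : kˣ} {j l : Oct a b c} (h : Trip a b' c' gi j l) {v : OctL E a b' c'}
    (hv : PPP P ρ σ α q v) : PPP P ρ σ α q (tripO E h v) := by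
  obtain ⟨y, hy, t, ht, h1⟩ := hv
  refine ⟨cjA ρ σ α q h y, cjA_mem_stabsP h hy, t, ht, ?_⟩
  rw [← tripO_Jm, ← tripO_tri]
  change cjE (tripO E h) y.1 _ = _
  rw [cj_apply, h1, map_smul, tripO_ep']

theorem PPP_of_AT {y : AT ρ σ α a b c q} (hy : y ∈ stabsP P ρ σ α a b c q) {v : OctL E a b c}
    (hv : PPP P ρ σ α q (y.1 v)) : PPP P ρ σ α q v := by
  obtain ⟨y2, hy2, t, ht, h1⟩ := hv
  have h0 : algebraMap L E (kap y : L) ≠ 0 :=
    (map_ne_zero_iff _ (algebraMap L E).injective).2 (kap y).ne_zero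
  refine ⟨y2 * y, Subgroup.mul_mem _ hy2 hy, algebraMap L E (kap y : L) * t,
    mul_ne_zero h0 ht, ?_⟩
  change y2.1 (y.1 _) = _
  rw [isKap_kap y, y.2.2, map_smul, h1, smul_smul]

theorem PPP_AT {y : AT ρ σ α a b c q} (hy : y ∈ stabsP P ρ σ α a b c q) {v : OctL E a b c}
    (hv : PPP P ρ σ α q v) : PPP P ρ σ α q (y.1 v) := by
  apply PPP_of_AT (Subgroup.inv_mem _ hy)
  change PPP P ρ σ α q ((y⁻¹ * y : AT ρ σ α a b c q).1 v)
  rw [inv_mul_cancel]
  exact hv

theorem PPP_smul {s : E} (hs : s ≠ 0) {v : OctL E a b c} (hv : PPP P ρ σ α q v) :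
    PPP P ρ σ α q (s • v) := by
  obtain ⟨y, hy, t, ht, h1⟩ := hv
  have hs1 : ρ s ≠ 0 := (map_ne_zero ρ).2 hs
  have hs2 : ρ (ρ (σ s)) ≠ 0 := (map_ne_zero ρ).2 ((map_ne_zero ρ).2 ((map_ne_zero σ).2 hs))
  refine ⟨y, hy, ρ s * (ρ (ρ (σ s)) * t), mul_ne_zero hs1 (mul_ne_zero hs2 ht), ?_⟩
  rw [jmul, tri_smul_left, tri_smul_right, map_smul, map_smul, h1, smul_smul, smul_smul]
  congr 1
  ring

theorem PPP_mono {P' : Subgroup Lˣ} (hP : P ≤ P') {v : OctL E a b c} (hv : PPP P ρ σ α q v) :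
    PPP P' ρ σ α q v := by
  obtain ⟨y, hy, h⟩ := hv
  refine ⟨y, Subgroup.closure_mono ?_ hy, h⟩
  rintro z ⟨h1, h2⟩
  exact ⟨hP h1, h2⟩

end alg

section step

variable {k L E : Type} [Field k] [NumberField k] [Field L] [Field E] [Algebra k L] [Algebra k E]
  [Algebra L E] [IsScalarTower k L E] {ρ σ : E ≃ₐ[k] E} {ρL : L ≃ₐ[k] L} {α : E}
  {a b c : kˣ} {q : Lˣ} (H : Hy ρ σ ρL α a b c q)

include H

/-- A positive element of `L` is not zero. -/
theorem ne_of_pos {ν : L} (hν : ∀ w : L →+* ℝ, w (algebraMap k L a) < 0 → 0 < w ν) : ν ≠ 0 := by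
  obtain ⟨w, hw, -⟩ := H.hcp
  rintro rfl
  have h1 := hν w hw
  rw [map_zero] at h1
  exact lt_irrefl _ h1

/-- The norms from `E` are positive at the real places with `a < 0`. -/
theorem exists_normP [NeZero (2 : E)] (s : E) (hs : s ≠ 0) : PosL L a (s * σ s) := by
  have hα0 : α ≠ 0 := Nei.al_ne H.α2
  have h2 : (2 : E) ≠ 0 := NeZero.ne 2
  obtain ⟨u, hu⟩ := exists_L H (e := (s + σ s) / 2) (by
    rw [map_div₀, map_add, H.σ2, map_ofNat, add_comm])
  obtain ⟨v, hv⟩ := exists_L H (e := (s - σ s) / (2 * α)) (by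
    rw [map_div₀, map_sub, H.σ2, map_mul, map_ofNat, H.σα]
    field_simp
    ring)
  have e1 : s = algebraMap L E u + algebraMap L E v * α := by
    rw [hu, hv]
    field_simp
    ring
  have e2 : σ s = algebraMap L E u - algebraMap L E v * α := by
    rw [hu, hv]
    field_simp
    ring
  have hα := H.α2
  refine ⟨u ^ 2 - algebraMap k L a * v ^ 2, ?_, fun w hw => ?_⟩
  · rw [map_sub, map_mul, map_pow, map_pow, ← IsScalarTower.algebraMap_apply, ← hα, e2]
    linear_combination (-(algebraMap L E u - algebraMap L E v * α)) * e1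
  · rw [map_sub, map_mul, map_pow, map_pow]
    by_cases hv0 : v = 0
    · have hu0 : u ≠ 0 := by
        rintro rfl
        apply hs
        rw [e1, hv0, map_zero, zero_mul, add_zero]
      have h3 : 0 < w u ^ 2 := by
        have : w u ≠ 0 := (map_ne_zero w).2 hu0
        positivity
      rw [hv0, map_zero]
      linarith
    · have h3 : 0 < w v ^ 2 := by
        have : w v ≠ 0 := (map_ne_zero w).2 hv0
        positivity
      nlinarith [sq_nonneg (w u), mul_pos_of_neg_of_neg hw (neg_lt_zero.2 h3)]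

variable [NeZero (2 : E)] {P : Subgroup Lˣ}
  (hP : ∀ κ : Lˣ, (∀ w : L →+* ℝ, w (algebraMap k L a) < 0 → 0 < w (κ : L)) → κ ∈ P)

include hP

/-- Transitivity along the standard line. -/
theorem exists_lineP (s t : E)
    (hs : PosL L a (s * σ s - algebraMap k E (b : k) * (t * σ t) / ρ (algebraMap L E (q : L)))) :
    ∃ z ∈ stabsP P ρ σ α a b c q, ∃ r : E, r ≠ 0 ∧
      z.1 (ep α) = r • tri ρ (s • (ep α * gl) + t • ((1 - ep α) * (gj * gl)) : OctL E a b c)
        (Jm ρ σ α q (s • (ep α * gl) + t • ((1 - ep α) * (gj * gl)))) := by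
  obtain ⟨t0, ht0, hpos⟩ := hs
  have ht00 : t0 ≠ 0 := ne_of_pos H hpos
  have h : s ≠ 0 ∨ t ≠ 0 := by
    by_contra hcon
    push Not at hcon
    rw [hcon.1, hcon.2, map_zero, zero_mul, mul_zero, zero_div, sub_zero] at ht0
    exact ht00 ((map_eq_zero _).1 ht0)
  obtain ⟨z, hz1, hz2, r, hr, hz3⟩ := exists_line (c := c) H s t h (ν := t0)
    (by rw [ht0]; ring) hpos
  have hκ : kap z ∈ P := by
    have h1 : IsKap ρ z.1 (Units.mk0 t0 ht00)⁻¹ := hz2 _ (by
      rw [Units.val_inv_eq_inv_val, Units.val_mk0, mul_inv_cancel₀ ht00])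
    rw [kap_eq h1]
    apply hP
    intro w hw
    rw [Units.val_inv_eq_inv_val, Units.val_mk0, map_inv₀]
    exact inv_pos.2 (hpos w hw)
  exact ⟨z, mem_stabsP0 hκ hz1, r, hr, hz3⟩

theorem line1P (s t : E)
    (hs : PosL L a (s * σ s - algebraMap k E (b : k) * (t * σ t) / ρ (algebraMap L E (q : L)))) :
    PPP P ρ σ α q (s • (ep α * gl) + t • ((1 - ep α) * (gj * gl)) : OctL E a b c) := by
  obtain ⟨z, hz, r, hr, h1⟩ := exists_lineP H hP (c := c) s t hs
  refine ⟨z⁻¹, Subgroup.inv_mem _ hz, r⁻¹, inv_ne_zero hr, ?_⟩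
  apply z.1.injective
  rw [map_smul, h1, smul_smul, inv_mul_cancel₀ hr, one_smul]
  change (z * z⁻¹ : AT ρ σ α a b c q).1 _ = _
  rw [mul_inv_cancel]
  rfl

/-- The neighbours of the standard vector. -/
theorem step0P {v : OctL E a b c} (hv : Pt ρ v) (h : Nb ρ (ep α * oup E (gl : Oct a b c)) v)
    (hs : PosL L a (hh ρ σ α q v / hh ρ σ α q (ep α * oup E (gl : Oct a b c)))) :
    PPP P ρ σ α q v := by
  have hq0 : algebraMap L E (q : L) ≠ 0 := H.hj.q_ne
  have hq1 : ρ (algebraMap L E (q : L)) ≠ 0 := (map_ne_zero ρ).2 hq0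
  have hcE : algebraMap k E (c : k) ≠ 0 := (map_ne_zero _).2 c.ne_zero
  -- the type of the vectors of the standard line
  have hline : ∀ (b' : kˣ) (s t : E), hh ρ σ α q
      (s • (ep α * gl) + t • ((1 - ep α) * (gj * gl)) : OctL E a b' c) /
        hh ρ σ α q (ep α * oup E (gl : Oct a b c)) =
      s * σ s - algebraMap k E (b' : k) * (t * σ t) / ρ (algebraMap L E (q : L)) := by
    intro b' s t
    have e0 : (ep α * oup E (gl : Oct a b c) : OctL E a b c) =
        ⟨0, mk4 (up E a) (up E b) α 1 0 0 0⟩ := by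
      have h1 := line_vec (b := b) (c := c) H.α2 1 0
      rw [one_smul, zero_smul, add_zero] at h1
      rw [oup_gl, h1]
    rw [line_vec H.α2, e0, hh_line H.α2 H.σα, hh_line H.α2 H.σα, map_one, map_zero]
    field_simp
    ring
  obtain ⟨s, t, f, f1, f2, f3, f4, hf⟩ := nb_ep H hv h
  by_cases hf0 : f = 0
  · rw [hf0, oup_zero, mul_zero, smul_zero, add_zero, oup_gl] at hf
    have e0 : (s • (ep α * gl) + (0 : E) • ((1 - ep α) * (gj * gl)) : OctL E a b c) = v := by
      rw [zero_smul, add_zero, hf]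
    have h1 := line1P H hP (c := c) s 0 (by rw [← hline b s 0, e0]; exact hs)
    rwa [e0] at h1
  · -- the element `j'` with `f = j' l`
    have ha0 : (a : k) ≠ 0 := a.ne_zero
    have hb0 : (b : k) ≠ 0 := b.ne_zero
    have hc0 : (c : k) ≠ 0 := c.ne_zero
    have g0 : f.fst.re = 0 := by
      simp [dot] at f1
      exact f1
    have g1 : f.fst.imI = 0 := by
      simp [dot, gi] at f2
      exact f2
    have g2 : f.snd.re = 0 := by
      simp [dot, gl] at f3
      exact f3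
    have g3 : f.snd.imI = 0 := by
      simp [dot, gi, gl] at f4
      exact f4
    obtain ⟨j', hj'⟩ : ∃ j' : Oct a b c, j' =
      ⟨⟨0, 0, f.snd.imJ, f.snd.imK⟩, ⟨0, 0, f.fst.imJ / c, f.fst.imK / c⟩⟩ := ⟨_, rfl⟩
    have hjl : j' * gl = f := by
      rw [hj']
      apply ext8 <;> simp [gl, g0, g1, g2, g3] <;> field_simp
    have hj0 : j' ≠ 0 := by
      intro h0
      apply hf0
      rw [← hjl, h0, zero_mul]
    have hn : -norm j' ≠ 0 := neg_ne_zero.2 fun h0 => hj0 (H.hdiv _ h0)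
    have hsj : star j' = -j' := by
      rw [hj']
      apply ext8 <;> simp
    have ht : Trip a (Units.mk0 _ hn) c gi j' gl := by
      have hs : Trip a b c (gi : Oct a b c) gj gl := trip_std
      refine ⟨hs.si, hsj, hs.sl, hs.ii, norm_eq_of_sq hsj, hs.ll, ?_, hs.il, ?_, ?_⟩
      · rw [hj']; simp [dot, gi]
      · rw [hj']; simp [dot, gl]
      · rw [hj']; simp [dot, gi, gl]
    have e1 : tripO E ht (s • (ep α * gl) + t • ((1 - ep α) * (gj * gl))) = v := by
      have e2 : tripO E ht gl = oup E gl := by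
        rw [← oup_gl, tripO_oup, B.emb_gl]
      have e3 : tripO E ht gj = oup E j' := by
        rw [← oup_gj, tripO_oup, B.emb_gj]
      have e4 : tripO E ht 1 = 1 := hom_one (tripO_mul ht)
      rw [map_add, map_smul, map_smul, tripO_mul, tripO_mul, tripO_mul, map_sub, e4, e2, e3,
        tripO_ep', ← oup_mul, hjl, hf]
    have h1 := PPP_trip ht (line1P (hyTrip H ht) hP s t (by
      rw [← hline (Units.mk0 _ hn) s t, ← hh_trip ht, e1]
      exact hs))
    rwa [e1] at h1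

/-- **Planes of neighbours.** -/
theorem stepP {v v' : OctL E a b c} (hv : Pt ρ v) (hv' : Pt ρ v') (hn : Nb ρ v v')
    (hs : PosL L a (hh ρ σ α q v' / hh ρ σ α q v)) (hp : PPP P ρ σ α q v) :
    PPP P ρ σ α q v' := by
  obtain ⟨y, hy, t, ht, h1⟩ := hp
  have hκ : algebraMap L E (kap y : L) ≠ 0 :=
    (map_ne_zero_iff _ (algebraMap L E).injective).2 (kap y).ne_zero
  have h2 : tri ρ (y.1 v) (Jm ρ σ α q (y.1 v)) =
      ((algebraMap L E (kap y : L))⁻¹ * t) • ep α := by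
    rw [← y.2.2, tri_AT (isKap_kap y), h1, smul_smul]
  obtain ⟨s, w, hs0, hw, w1, w2, h3⟩ := sing_ep H (pt_AT y hv)
    (mul_ne_zero (inv_ne_zero hκ) ht) h2
  have hstd : Trip a b c (gi : Oct a b c) gj gl := trip_std
  have hi1 : dot (gi : Oct a b c) 1 = 0 := by simp [dot, gi]
  have hi0 : (gi : Oct a b c) ≠ 0 := by
    intro h0
    have h5 := congrArg (fun x : Oct a b c => x.fst.imI) h0
    simp [gi] at h5
  obtain ⟨a', b', c', m, hm⟩ := D4.H369.trip_of_ij H.hdiv hi1 hi0 w1 hw w2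
  have ht1 : Trip a c' b' gi m w := by
    refine ⟨hm.si, hm.sl, hm.sj, hstd.ii, hm.ll, hm.jj, hm.il, hm.ij, ?_, ?_⟩
    · rw [dot_comm]; exact hm.jl
    · rw [dot_mul_left, hm.si, neg_mul, dot_neg_right, dot_comm, hm.ijl, neg_zero]
  have e1 : y.1 v = s • tripO E ht1 (ep α * oup E gl) := by
    rw [h3, tripO_mul, tripO_ep', tripO_oup, B.emb_gl]
  obtain ⟨x', hx'⟩ := (tripO E ht1).surjective (y.1 v')
  have h4 : Pt ρ x' := pt_trip ht1 (by rw [hx']; exact pt_AT y hv')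
  have h5 : Nb ρ (ep α * oup E gl) x' := by
    apply nb_trip ht1
    have h6 := nb_AT y hn
    rw [e1, ← hx'] at h6
    have hs1 : ρ s ≠ 0 := (map_ne_zero_iff ρ ρ.injective).2 hs0
    have hs2 : ρ (ρ s) ≠ 0 := (map_ne_zero_iff ρ ρ.injective).2 hs1
    refine ⟨?_, ?_⟩
    · have h7 := h6.1
      rw [tri_smul_left] at h7
      exact (smul_eq_zero.1 h7).resolve_left hs1
    · have h7 := h6.2
      rw [tri_smul_right] at h7
      exact (smul_eq_zero.1 h7).resolve_left hs2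
  -- the types
  have k1 := hh_kap (q := q) H.ρ3 y (isKap_kap y) v
  have k2 := hh_kap (q := q) H.ρ3 y (isKap_kap y) v'
  rw [e1, hh_smul, hh_trip] at k1
  rw [← hx', hh_trip] at k2
  have hκ1 : ρ (algebraMap L E (kap y : L)) ≠ 0 := (map_ne_zero ρ).2 hκ
  have hκ2 : ρ (ρ (algebraMap L E (kap y : L))) ≠ 0 := (map_ne_zero ρ).2 hκ1
  have hσs : σ s ≠ 0 := (map_ne_zero σ).2 hs0
  have hN : PosL L a (s * σ s) := by
    exact exists_normP H s hs0
  have hpos : PosL L a (hh ρ σ α q x' / hh ρ σ α q (ep α * oup E (gl : Oct a c' b'))) := by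
    have h8 : hh ρ σ α q x' / hh ρ σ α q (ep α * oup E (gl : Oct a c' b')) =
        s * σ s * (hh ρ σ α q v' / hh ρ σ α q v) := by
      rw [← k1, ← k2]
      by_cases h0 : hh ρ σ α q (ep α * oup E (gl : Oct a c' b')) = 0
      · rw [h0]
        simp
      · field_simp
    rw [h8]
    exact hN.mul hs
  have h7 := PPP_trip ht1 (step0P (hyTrip H ht1) hP h4 h5 hpos)
  rw [hx'] at h7
  exact PPP_of_AT hy h7

end step

end Vale.Agent.P011.D4X
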