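import Vale.Agent.P011.D4X.H691.Std
import Vale.Agent.P011.D4X.H657.Line

/-!
Block D4X (helper659): the type of a singular vector, `hh v = bil v (J v)`.
-/

open NumberField Topology

set_option linter.unusedSectionVars false

namespace Vale.Agent.P011.D4X

open Vale.Agent.P011.MPQ Vale.Agent.P011.D4 Vale.Agent.P011.D4.Oct Vale.Agent.P011.E6

section alg

variable {k L E : Type} [Field k] [Field L] [Field E] [Algebra k L] [Algebra k E] [Algebra L E]
  [IsScalarTower k L E] {ρ σ : E ≃ₐ[k] E} {α : E} {a b c : kˣ} {q : Lˣ}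

/-- The type of a vector. -/
def hh (ρ σ : E ≃ₐ[k] E) (α : E) (q : Lˣ) {a b c : kˣ} (v : OctL E a b c) : E :=
  Oct.bil v (Jm ρ σ α q v)

/-- The element comes from an element of `L` which is positive at the real places with `a < 0`. -/
def PosL (L : Type) [Field L] [Algebra k L] [Algebra L E] (a : kˣ) (r : E) : Prop :=
  ∃ t : L, algebraMap L E t = r ∧ ∀ w : L →+* ℝ, w (algebraMap k L a) < 0 → 0 < w t

theorem PosL.mul {r s : E} (hr : PosL L a r) (hs : PosL L a s) : PosL L a (r * s) := by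
  obtain ⟨t, ht, h1⟩ := hr
  obtain ⟨u, hu, h2⟩ := hs
  exact ⟨t * u, by rw [map_mul, ht, hu], fun w hw => by
    rw [map_mul]
    exact mul_pos (h1 w hw) (h2 w hw)⟩

theorem PosL.inv {r : E} (hr : PosL L a r) : PosL L a r⁻¹ := by
  obtain ⟨t, ht, h1⟩ := hr
  exact ⟨t⁻¹, by rw [map_inv₀, ht], fun w hw => by
    rw [map_inv₀]
    exact inv_pos.2 (h1 w hw)⟩

theorem PosL.div {r s : E} (hr : PosL L a r) (hs : PosL L a s) : PosL L a (r / s) := by
  rw [div_eq_mul_inv]
  exact hr.mul hs.inv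

theorem PosL.one : PosL L a (1 : E) :=
  ⟨1, map_one _, fun w _ => by rw [map_one]; exact one_pos⟩

theorem jmul (t : E) (x : OctL E a b c) : Jm ρ σ α q (t • x) = σ t • Jm ρ σ α q x := by
  rw [Jm_eq, Jm_eq, omap_smul, mul_smul_oct, smul_mul_oct]

theorem hh_smul (t : E) (v : OctL E a b c) :
    hh ρ σ α q (t • v) = t * σ t * hh ρ σ α q v := by
  rw [hh, hh, jmul, bil_smul_left, bil_smul_right]
  ring

/-- The multiplier of a similitude. -/
theorem norm_kap (hρ : ∀ x, ρ (ρ (ρ x)) = x) {z : OctL E a b c ≃ₗ[E] OctL E a b c} {κ : Lˣ}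
    (h : IsKap ρ z κ) (x : OctL E a b c) :
    ρ (algebraMap L E (κ : L)) * ρ (ρ (algebraMap L E (κ : L))) * Oct.norm (z x) =
      Oct.norm x := by
  have h1 := congrArg z (Orb.tri_tri hρ x (1 : OctL E a b c))
  rw [map_smul, h, h, tri_smul_left, Orb.tri_tri hρ, smul_smul, smul_smul] at h1
  have h2 : z (1 : OctL E a b c) ≠ 0 := by
    intro h0
    have h5 : (1 : OctL E a b c) = 0 := z.injective (h0.trans (map_zero z).symm)
    have h6 := congrArg (fun x : OctL E a b c => x.fst.re) h5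
    simp at h6
  have h3 := congrArg ρ (smul_left_injective E h2 h1)
  simp only [map_mul, hρ] at h3
  linear_combination h3

theorem bil_kap (hρ : ∀ x, ρ (ρ (ρ x)) = x) {z : OctL E a b c ≃ₗ[E] OctL E a b c} {κ : Lˣ}
    (h : IsKap ρ z κ) (x y : OctL E a b c) :
    ρ (algebraMap L E (κ : L)) * ρ (ρ (algebraMap L E (κ : L))) * Oct.bil (z x) (z y) =
      Oct.bil x y := by
  rw [Oct.bil, Oct.bil, ← map_add, mul_sub, mul_sub, norm_kap hρ h, norm_kap hρ h, norm_kap hρ h]

theorem hh_kap (hρ : ∀ x, ρ (ρ (ρ x)) = x) (z : AT ρ σ α a b c q) {κ : Lˣ}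
    (h : IsKap ρ z.1 κ) (v : OctL E a b c) :
    ρ (algebraMap L E (κ : L)) * ρ (ρ (algebraMap L E (κ : L))) * hh ρ σ α q (z.1 v) =
      hh ρ σ α q v := by
  rw [hh, hh, ← z.2.2, bil_kap hρ h]

/-- The type is kept by a change of coordinates. -/
theorem hh_trip [NeZero (2 : E)] {b' c' : kˣ} {j l : Oct a b c} (h : Trip a b' c' gi j l)
    (v : OctL E a b' c') : hh ρ σ α q (tripO E h v) = hh ρ σ α q v := by
  have h1 : ∀ x : OctL E a b' c', Oct.norm (tripO E h x) = Oct.norm x := fun x =>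
    hom_norm (tripO_mul h) x
  rw [hh, hh, ← tripO_Jm, Oct.bil, Oct.bil, ← map_add, h1, h1, h1]

theorem Jm_line [NeZero (2 : E)] (hα' : α * α = algebraMap k E a) (hσα : σ α = -α) (s t : E) :
    Jm ρ σ α q (⟨0, mk4 (up E a) (up E b) α s 0 t 0⟩ : OctL E a b c) =
      ⟨0, mk4 (up E a) (up E b) α 0 (σ s * (algebraMap L E (q : L) *
        ρ (algebraMap L E (q : L)))) 0 (σ t * algebraMap L E (q : L))⟩ := by
  have hα : α * α = ((up E a : Eˣ) : E) := hα'
  apply Oct.ext
  · change mq a b α (algebraMap L E q) * qmap σ 0 *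
      mq a b α (algebraMap L E q * ρ (algebraMap L E q)) = 0
    rw [qmap_zero, mul_zero, zero_mul]
  · change qmap σ (mk4 (up E a) (up E b) α s 0 t 0) * (mq a b α (algebraMap L E q) *
      star (mq a b α (algebraMap L E q * ρ (algebraMap L E q)))) = _
    rw [mq_eq, mq_eq, star_mk4, mk4_mul hα, qmap_mk4' hσα, mk4_mul hα]
    simp only [map_zero, mul_zero, zero_mul, add_zero, zero_add, mul_one, one_mul, neg_zero]

theorem norm_snd (y : Qt (up E a) (up E b)) :
    Oct.norm (⟨0, y⟩ : OctL E a b c) = -(algebraMap k E (c : k)) * nrd y := by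
  change nrd (0 : Qt (up E a) (up E b)) - ((up E c : Eˣ) : E) * nrd y = _
  have h1 : ((up E c : Eˣ) : E) = algebraMap k E (c : k) := rfl
  rw [h1, show nrd (0 : Qt (up E a) (up E b)) = 0 by simp [nrd]]
  ring

/-- The type of a vector of the standard line. -/
theorem hh_line [NeZero (2 : E)] (hα' : α * α = algebraMap k E a) (hσα : σ α = -α) (s t : E) :
    hh ρ σ α q (⟨0, mk4 (up E a) (up E b) α s 0 t 0⟩ : OctL E a b c) =
      -(algebraMap k E (c : k)) * (algebraMap L E (q : L) * ρ (algebraMap L E (q : L)) *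
        (s * σ s) - algebraMap k E (b : k) * algebraMap L E (q : L) * (t * σ t)) := by
  have hα : α * α = ((up E a : Eˣ) : E) := hα'
  have hadd : ∀ y y' : Qt (up E a) (up E b), (⟨0, y⟩ + ⟨0, y'⟩ : OctL E a b c) = ⟨0, y + y'⟩ := by
    intro y y'
    apply Oct.ext
    · exact add_zero _
    · rfl
  have hb : ((up E b : Eˣ) : E) = algebraMap k E (b : k) := rfl
  rw [hh, Jm_line hα' hσα, Oct.bil, hadd, add_mk4, norm_snd, norm_snd, norm_snd, nrd_mk4 hα,
    nrd_mk4 hα, nrd_mk4 hα, hb]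
  ring

end alg

end Vale.Agent.P011.D4X
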