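import Vale.Agent.P011.D4X.H659.Step
import Vale.Agent.P011.D4X.H369.Gen2

/-!
Block D4X (helper659): the stabiliser of the standard plane, elements with multiplier in `P`.
-/

open NumberField Topology

set_option linter.unusedSectionVars false

namespace Vale.Agent.P011.D4X

open Vale.Agent.P011.MPQ Vale.Agent.P011.D4 Vale.Agent.P011.D4.Oct Vale.Agent.P011.D4.Em
open Vale.Agent.P011.E6 (tripO tripO_oup)
open Vale.Agent.P011.D4.B.FI (fixI fixI_top mem_fixI)
open Vale.Agent.P011.D4X.H691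

section main

variable {k L E : Type} [Field k] [NumberField k] [Field L] [NumberField L] [Field E]
  [Algebra k L] [Algebra k E] [Algebra L E] [IsScalarTower k L E] [NeZero (2 : E)]
  {ρ σ : E ≃ₐ[k] E} {ρL : L ≃ₐ[k] L} {α : E} {a b c : kˣ} {q : Lˣ}

/-- The stabiliser of the standard plane is generated by elements of centralisers. -/
theorem gen2P (H : Hy ρ σ ρL α a b c q) {P : Subgroup Lˣ} {z : AT ρ σ α a b c q} {t : E}
    (hz : z.1 (ep α) = t • ep α) (hzP : kap z ∈ P) : z ∈ stabsP P ρ σ α a b c q := by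
  have h2 : (2 : k) ≠ 0 := two_ne_zero
  have : NeZero (2 : k) := ⟨h2⟩
  have n2 : (2 : E) ≠ 0 := NeZero.ne 2
  have hα0 := H369.al0 H
  obtain ⟨κ, hκ⟩ := isKap_kap z |> fun h => (⟨_, h⟩ : ∃ κ : Lˣ, IsKap ρ z.1 κ)
  have ht : t ≠ 0 := by
    rintro rfl
    rw [zero_smul] at hz
    have h5 : (ep α : OctL E a b c) = 0 := z.1.injective (by rw [hz, map_zero])
    have h6 : (1 / 2 : E) = 0 := congrArg (fun z : OctL E a b c => z.fst.re) h5
    exact (one_div_ne_zero n2) h6
  have hstd := Oct.trip_std (a := a) (b := b) (c := c)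
  have hst0 : tQ E hstd = t0 E a b c :=
    H369.tQ_t0 h2 (p := 1) (r := 0) (by rfl) (by norm_num) hstd
  -- the transported involution
  obtain ⟨T, hT⟩ : ∃ T, T = z * tAT ρ σ α q hstd * z⁻¹ := ⟨_, rfl⟩
  have hkT : IsKap ρ T.1 (1 : Lˣ) := by
    have := (hκ.mul (tAT_kap (σ := σ) (α := α) (q := q) hstd)).mul hκ.inv
    rw [mul_one, mul_inv_cancel] at this
    rw [hT]
    exact this
  have hTm : T.1 ∈ GT ρ σ α a b c q := ⟨fun x y => by
    have := hkT x y
    rwa [Units.val_one, map_one, one_smul] at this, T.2.2⟩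
  have hT1 : T.1 ≠ 1 := by
    intro h
    have h' : T = 1 := Subtype.ext h
    rw [hT, mul_inv_eq_one, mul_eq_left] at h'
    exact tAT_ne hstd h'
  have hTT : T.1 * T.1 = 1 := by
    have h' : T * T = 1 := by
      rw [hT]
      calc z * tAT ρ σ α q hstd * z⁻¹ * (z * tAT ρ σ α q hstd * z⁻¹) =
          z * (tAT ρ σ α q hstd * tAT ρ σ α q hstd) * z⁻¹ := by group
        _ = 1 := by rw [tAT_sq, mul_one, mul_inv_cancel]
    exact congrArg Subtype.val h'
  have hTz : T.1 * z.1 = z.1 * tQ E hstd := by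
    have h' : T * z = z * tAT ρ σ α q hstd := by rw [hT, inv_mul_cancel_right]
    exact congrArg Subtype.val h'
  have hTe : T.1 (ep α) = ep α := by
    have e1 : T.1 (z.1 (ep α)) = z.1 (tQ E hstd (ep α)) := congrArg (fun f => f (ep α)) hTz
    have e2 : tQ E hstd (ep α : OctL E a b c) = ep α := by
      rw [hst0]
      apply Oct.ext
      · rfl
      · exact neg_zero
    rw [e2, hz, map_smul] at e1
    exact smul_right_injective _ ht e1
  obtain ⟨b', c', j, l, h, hT'⟩ := exists_tQ H hTm hT1 hTT hTe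
  rw [hT'] at hTz
  -- the comparison of the two planes
  obtain ⟨Z, hZ⟩ : ∃ Z : OctL E a b c ≃ₗ[E] OctL E a b' c', ∀ x, tripO E h (Z x) = z.1 x :=
    ⟨z.1.trans (tripO E h).symm, fun x => (tripO E h).apply_symm_apply _⟩
  have hZs : ∀ x, (tripO E h).symm (z.1 x) = Z x := fun x => by
    rw [← hZ, LinearEquiv.symm_apply_apply]
  obtain ⟨s, hs0, -, hst⟩ := H369.zmain H (Z := Z) (κ := algebraMap L E κ) (t := t)
    (fun x y => (tripO E h).injective (by
      rw [hZ, hκ, map_smul, tripO_tri, hZ, hZ]))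
    ((map_ne_zero _).mpr κ.ne_zero)
    (fun x => (tripO E h).injective (by rw [hZ, z.2.2, tripO_Jm, hZ]))
    (fun x => (tripO E h).injective (by
      rw [hZ, ← hst0]
      have e1 : z.1 (tQ E hstd x) = tQ E h (z.1 x) := congrArg (fun f => f x) hTz.symm
      rw [e1]
      change tripO E h (t0 E a b' c' ((tripO E h).symm (z.1 x))) = _
      rw [hZs]))
    ((tripO E h).injective (by
      rw [hZ, hz, map_smul]
      congr 1
      rw [H369.ep_eq, H369.ep_eq, map_add, map_smul, map_smul, tripO_oup, tripO_oup,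
        B.emb_one, B.emb_gi]))
  obtain ⟨p, r, hpr⟩ := H369.exists_pr H hs0 ht hst
  have hD : p ^ 2 - (a : k) * r ^ 2 ≠ 0 := by
    intro h
    rw [h, mul_zero] at hpr
    exact b'.ne_zero hpr.symm
  obtain ⟨j', hj'⟩ : ∃ j' : Oct a b c, j' = ⟨⟨0, 0, p, r⟩, 0⟩ := ⟨_, rfl⟩
  have hsj : star j' = -j' := by
    rw [hj']
    apply ext8 <;> simp
  have hij : dot gi j' = 0 := by
    rw [B.dot_coord, hj']
    simp [gi]
  have hnj : Oct.norm j' = Oct.norm j := by
    rw [B.norm_of_sq h.sj h.jj, B.norm_coord, hj', ← hpr]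
    simp
    ring
  obtain ⟨n, hn, b₂, c₂, u, l₂, hu, hnu⟩ := H369.exists_n H.hdiv h.sj hsj h.ij hij hnj
  have h₁ : Trip a b' c' gi j' (n.1.1 l) := by
    have := Oct.trip_map h (Φ := n.1.1) n.1.2
    rwa [mem_fixI.mp n.2, hn] at this
  have hm := H369.extE_mem (ρ := ρ) (σ := σ) (α := α) (q := q) n
  obtain ⟨nA, hnA⟩ : ∃ nA : AT ρ σ α a b c q, nA.1 = extE E n.1.1 :=
    ⟨⟨_, ⟨1, fun x y => by
      rw [Units.val_one, map_one, one_smul]
      exact hm.1 x y⟩, hm.2⟩, rfl⟩
  have hk : kap nA = 1 := kap_eq fun x y => by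
    rw [Units.val_one, map_one, one_smul, hnA]
    exact hm.1 x y
  have m1 : nA ∈ stabsP P ρ σ α a b c q := by
    refine Subgroup.subset_closure ⟨by rw [hk]; exact one_mem P, b₂, c₂, u, l₂, hu, ?_⟩
    change nA.1 * tQ E hu = tQ E hu * nA.1
    rw [hnA]
    exact H369.ext_tQ h2 n hu hu hnu
  have m2 : nA * z ∈ stabsP P ρ σ α a b c q := by
    refine Subgroup.subset_closure
      ⟨by rw [kap_mul, hk, one_mul]; exact hzP, b, c, gj, gl, hstd, ?_⟩
    change nA.1 * z.1 * tQ E hstd = tQ E hstd * (nA.1 * z.1)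
    rw [mul_assoc, ← hTz, ← mul_assoc, hnA, H369.ext_tQ h2 n h h₁ hn,
      H369.tQ_t0 h2 hj' hD h₁, hst0, mul_assoc]
  have m3 : z = nA⁻¹ * (nA * z) := by rw [inv_mul_cancel_left]
  rw [m3]
  exact mul_mem (inv_mem m1) m2

end main

end Vale.Agent.P011.D4X
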