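import Vale.Agent.P011.D4X.H659.Step
import Vale.Agent.P011.D4X.H62.Aniso

/-!
Block D4X (helper659): planes of neighbours, with a condition at the bad places only.
-/

open NumberField Topology

set_option linter.unusedSectionVars false

namespace Vale.Agent.P011.D4X

open Vale.Agent.P011.MPQ Vale.Agent.P011.D4 Vale.Agent.P011.D4.Oct Vale.Agent.P011.E6
open Vale.Agent.P011.D4X.H691

/-- The bad complex places. -/
def BadW {k E : Type} [Field k] [Field E] [Algebra k E] (ρ σ : E ≃ₐ[k] E) (q : E)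
    (W : E →+* ℂ) : Prop :=
  (∀ x, W (σ x) = starRingEnd ℂ (W x)) ∧
    ¬ (0 < (W q).re ∧ 0 < (W (ρ q)).re ∧ 0 < (W (ρ (ρ q))).re)

section bad

variable {k L E : Type} [Field k] [Field L] [Field E] [Algebra k L] [Algebra k E]
  [Algebra L E] [IsScalarTower k L E] [NeZero (2 : E)] {ρ σ : E ≃ₐ[k] E} {ρL : L ≃ₐ[k] L} {α : E}
  {a b c : kˣ} {q : Lˣ} (H : Hy ρ σ ρL α a b c q)

include H

/-- The complex places over the real places with `a < 0`. -/
theorem exists_Wbad {w : L →+* ℝ} (hw : w (algebraMap k L a) < 0) : ∃ W : E →+* ℂ,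
    (∀ t : L, W (algebraMap L E t) = (w t : ℂ)) ∧ ∀ x, W (σ x) = starRingEnd ℂ (W x) := by
  letI : Algebra L ℂ := (Complex.ofRealHom.comp w).toAlgebra
  have : FiniteDimensional L E := FiniteDimensional.of_finrank_pos (by rw [H.h2]; norm_num)
  obtain ⟨f⟩ : Nonempty (E →ₐ[L] ℂ) := ⟨IsAlgClosed.lift⟩
  have hf : ∀ t : L, f (algebraMap L E t) = (w t : ℂ) := fun t => f.commutes t
  refine ⟨f.toRingHom, hf, ?_⟩
  have hz : f α * f α = (w (algebraMap k L a) : ℂ) := by
    rw [← map_mul, H.α2, IsScalarTower.algebraMap_apply k L E, hf]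
  have hc : starRingEnd ℂ (f α) = -f α := by
    have h1 : (starRingEnd ℂ (f α) - f α) * (starRingEnd ℂ (f α) + f α) = 0 := by
      have h2 := congrArg (starRingEnd ℂ) hz
      rw [map_mul, Complex.conj_ofReal] at h2
      linear_combination h2 - hz
    rcases mul_eq_zero.1 h1 with h | h
    · exfalso
      obtain ⟨r, hr⟩ := Complex.conj_eq_iff_real.1 (sub_eq_zero.1 h)
      rw [hr] at hz
      have h3 : r * r = w (algebraMap k L a) := by exact_mod_cast hz
      nlinarith [mul_self_nonneg r]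
    · exact eq_neg_of_add_eq_zero_left h
  intro x
  change f (σ x) = starRingEnd ℂ (f x)
  obtain ⟨x0, x1, rfl⟩ := H.coord x
  rw [map_add σ, map_mul σ, H.σL, H.σL, H.σα, map_add f, map_mul f, map_add f, map_mul f, map_neg,
    hf, hf, map_add, map_mul, Complex.conj_ofReal, Complex.conj_ofReal, hc]

/-- The ratio of the types is positive at the places with `a < 0` if it is positive at the bad
places. -/
theorem posL_of_bad {v v' : OctL E a b c} (hv : v ≠ 0) (hv' : v' ≠ 0)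
    (hs : ∀ W : E →+* ℂ, BadW ρ σ (algebraMap L E (q : L)) W →
      0 < (W (hh ρ σ α q v' / hh ρ σ α q v)).re) :
    PosL L a (hh ρ σ α q v' / hh ρ σ α q v) := by
  obtain ⟨w0, h1, h2, h3, h4, h5, -⟩ := H.cp
  obtain ⟨n, hn, hn0⟩ := H.pos_compact hv h1 h4 h5 h2 h3
  obtain ⟨n', hn', hn0'⟩ := H.pos_compact hv' h1 h4 h5 h2 h3
  refine ⟨n' / n, by rw [map_div₀, hn, hn']; rfl, fun w hw => ?_⟩
  by_cases hc : 0 < w (q : L) ∧ 0 < w (ρL q) ∧ 0 < w (ρL (ρL q))
  · obtain ⟨hb, hc'⟩ := H.hre w hw hc.1 hc.2.1 hc.2.2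
    obtain ⟨m, hm, hm0⟩ := H.pos_compact hv hw hc.1 hc.2.1 hb hc'
    obtain ⟨m', hm', hm0'⟩ := H.pos_compact hv' hw hc.1 hc.2.1 hb hc'
    have e1 : m = n := (algebraMap L E).injective (hm.trans hn.symm)
    have e2 : m' = n' := (algebraMap L E).injective (hm'.trans hn'.symm)
    rw [e1] at hm0
    rw [e2] at hm0'
    rw [map_div₀]
    exact div_pos hm0' hm0
  · obtain ⟨W, hW, hW'⟩ := exists_Wbad H hw
    have h6 := hs W ⟨hW', by rw [hW, H.ρL', H.ρL', hW, hW]; exact hc⟩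
    have h7 : hh ρ σ α q v' / hh ρ σ α q v = algebraMap L E (n' / n) := by
      rw [map_div₀, hn, hn']; rfl
    rw [h7, hW, Complex.ofReal_re] at h6
    exact h6

end bad

section step

variable {k L E : Type} [Field k] [NumberField k] [Field L] [Field E] [Algebra k L] [Algebra k E]
  [Algebra L E] [IsScalarTower k L E] [NeZero (2 : E)] {ρ σ : E ≃ₐ[k] E} {ρL : L ≃ₐ[k] L} {α : E}
  {a b c : kˣ} {q : Lˣ} (H : Hy ρ σ ρL α a b c q) {P : Subgroup Lˣ}
  (hP : ∀ κ : Lˣ, (∀ w : L →+* ℝ, w (algebraMap k L a) < 0 → 0 < w (κ : L)) → κ ∈ P)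

include H hP

/-- **Planes of neighbours**, with a condition at the bad places only. -/
theorem stepB {v v' : OctL E a b c} (hv : Pt ρ v) (hv' : Pt ρ v') (hn : Nb ρ v v')
    (hs : ∀ W : E →+* ℂ, BadW ρ σ (algebraMap L E (q : L)) W →
      0 < (W (hh ρ σ α q v' / hh ρ σ α q v)).re) (hp : PPP P ρ σ α q v) :
    PPP P ρ σ α q v' :=
  stepP H hP hv hv' hn (posL_of_bad H hv.1 hv'.1 hs) hp

end step

end Vale.Agent.P011.D4X
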